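import Vale.Agent.P219.CH.Interfaces

/-!
P219: pointwise calculus of a smooth metric on `ℝⁿ`: Christoffel symbols, gradient, the
compatibility of the connection and the derivative of the volume density.
-/

namespace Vale.Agent.P219.CH

open InnerProductSpace Filter Topology
open scoped ContDiff RealInnerProductSpace

noncomputable section

set_option maxSynthPendingDepth 3

variable {n : ℕ} {G : Coeff n}

theorem inner_sharp (G : Coeff n) (x u v : E n) : ⟪sharp G x u, v⟫ = G x u v :=
  toDual_symm_apply

/-- The standard basis. -/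
abbrev single₁ (i : Fin n) : E n := EuclideanSpace.single i 1

theorem sum_coord_smul (u : E n) : ∑ i, u i • single₁ i = u := by
  have h := (EuclideanSpace.basisFun (Fin n) ℝ).sum_repr u
  simpa using h

theorem gnorm_nonneg (G : Coeff n) (x u : E n) : 0 ≤ gnorm G x u := Real.sqrt_nonneg _

theorem gnorm_smul (G : Coeff n) (x u : E n) (c : ℝ) :
    gnorm G x (c • u) = |c| * gnorm G x u := by
  simp only [gnorm, map_smul, smul_apply, smul_eq_mul, ← mul_assoc]
  rw [Real.sqrt_mul (mul_self_nonneg c), Real.sqrt_mul_self_eq_abs]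

namespace IsMetric

variable (hG : IsMetric G)
include hG

theorem nonneg (x u : E n) : 0 ≤ G x u u := by
  rcases eq_or_ne u 0 with rfl | h
  · simp
  · exact (hG.pos x u h).le

theorem gnorm_sq (x u : E n) : gnorm G x u ^ 2 = G x u u := Real.sq_sqrt (hG.nonneg x u)

theorem gnorm_pos {x u : E n} (h : u ≠ 0) : 0 < gnorm G x u := Real.sqrt_pos.2 (hG.pos x u h)

theorem gnorm_eq_zero {x u : E n} : gnorm G x u = 0 ↔ u = 0 := by
  refine ⟨fun h => by_contra fun hu => (hG.gnorm_pos hu).ne' h, ?_⟩
  rintro rfl
  simp [gnorm]

theorem cauchy (x u v : E n) : |G x u v| ≤ gnorm G x u * gnorm G x v := by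
  have hq : ∀ t : ℝ, 0 ≤ G x u u * (t * t) + 2 * G x u v * t + G x v v := by
    intro t
    have h := hG.nonneg x (t • u + v)
    simp only [map_add, map_smul, add_apply, smul_apply, smul_eq_mul, hG.symm x v u] at h
    linarith
  have hd := discrim_le_zero hq
  rw [discrim] at hd
  rw [gnorm, gnorm, ← Real.sqrt_mul (hG.nonneg x u), ← Real.sqrt_sq_eq_abs]
  exact Real.sqrt_le_sqrt (by nlinarith)

theorem ext {x u v : E n} (h : ∀ w, G x u w = G x v w) : u = v := by
  by_contra hne
  refine (hG.pos x (u - v) (sub_ne_zero.2 hne)).ne' ?_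
  simp [h (u - v)]

theorem isUnit_sharp (x : E n) : IsUnit (sharp G x) := by
  have hinj : Function.Injective (sharp G x) := fun u v h =>
    hG.ext fun w => by rw [← inner_sharp, ← inner_sharp, h]
  refine ⟨(ContinuousLinearEquiv.toUnit
    (LinearEquiv.ofInjectiveEndo (sharp G x).toLinearMap hinj).toContinuousLinearEquiv), ?_⟩
  ext u
  rfl

theorem sharp_inverse (x y : E n) : sharp G x (Ring.inverse (sharp G x) y) = y := by
  have h := Ring.mul_inverse_cancel _ (hG.isUnit_sharp x)
  exact congrArg (fun f : E n →L[ℝ] E n => f y) h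

theorem G_inverse_sharp (x : E n) (L : E n →L[ℝ] ℝ) (w : E n) :
    G x (Ring.inverse (sharp G x) ((toDual ℝ (E n)).symm L)) w = L w := by
  rw [← inner_sharp, hG.sharp_inverse, toDual_symm_apply]

theorem G_grad (f : E n → ℝ) (x w : E n) : G x (grad G f x) w = fderiv ℝ f x w :=
  hG.G_inverse_sharp x _ w

theorem contDiff_sharp : ContDiff ℝ ∞ (sharp G) :=
  contDiff_const.clm_comp hG.smooth

theorem contDiff_inverse_sharp : ContDiff ℝ ∞ fun x => Ring.inverse (sharp G x) := by
  refine contDiff_iff_contDiffAt.2 fun x => ?_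
  have hu := contDiffAt_ringInverse ℝ (n := ∞) (hG.isUnit_sharp x).unit
  rw [IsUnit.unit_spec] at hu
  exact hu.comp x hG.contDiff_sharp.contDiffAt

theorem contDiff_grad {m : WithTop ℕ∞} (hm : m ≤ ∞) {f : E n → ℝ}
    (hf : ContDiff ℝ (m + 1) f) : ContDiff ℝ m (grad G f) :=
  (hG.contDiff_inverse_sharp.of_le hm).clm_apply
    ((toDual ℝ (E n)).symm.toContinuousLinearEquiv.contDiff.comp (hf.fderiv_right le_rfl))

theorem continuous_grad {f : E n → ℝ} (hf : ContDiff ℝ 1 f) : Continuous (grad G f) :=
  (hG.contDiff_grad (m := 0) bot_le (by simpa using hf)).continuous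

theorem continuous_gnorm : Continuous fun p : E n × E n => gnorm G p.1 p.2 :=
  Real.continuous_sqrt.comp
    (((hG.smooth.continuous.comp continuous_fst).clm_apply continuous_snd).clm_apply
      continuous_snd)

theorem differentiableAt_coeff (x : E n) : DifferentiableAt ℝ G x :=
  (hG.smooth.differentiable (by simp)).differentiableAt

theorem hasFDerivAt_apply (x u v : E n) :
    HasFDerivAt (fun y => G y u v) (((fderiv ℝ G x).flip u).flip v) x := by
  have h := ((hG.differentiableAt_coeff x).hasFDerivAt.clm_apply
    (hasFDerivAt_const u x)).clm_apply (hasFDerivAt_const v x)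
  refine h.congr_fderiv ?_
  ext w
  simp

theorem fderiv_symm (x w u v : E n) : fderiv ℝ G x w u v = fderiv ℝ G x w v u := by
  have h := (hG.hasFDerivAt_apply x u v).fderiv
  rw [funext fun y => hG.symm y u v, (hG.hasFDerivAt_apply x v u).fderiv] at h
  simpa using (congrArg (fun L : E n →L[ℝ] ℝ => L w) h).symm

theorem G_chr (x u v w : E n) : G x (chr G x u v) w = koszul G x u v w :=
  hG.G_inverse_sharp x _ w

theorem koszul_symm (x u v : E n) : koszul G x u v = koszul G x v u := by
  ext w
  simp only [koszul, smul_apply, sub_apply, add_apply,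
    ContinuousLinearMap.flip_apply, hG.fderiv_symm x w u v]
  rw [add_comm (fderiv ℝ G x u v w)]

theorem chr_symm (x u v : E n) : chr G x u v = chr G x v u := by
  rw [chr, chr, hG.koszul_symm]

/-- The connection is compatible with the metric. -/
theorem compat (x w u v : E n) :
    fderiv ℝ G x w u v = G x (chr G x w u) v + G x u (chr G x w v) := by
  rw [hG.symm x u, hG.G_chr, hG.G_chr]
  simp only [koszul, smul_apply, sub_apply, add_apply, ContinuousLinearMap.flip_apply,
    smul_eq_mul]
  rw [hG.fderiv_symm x w v u, hG.fderiv_symm x u w v, hG.fderiv_symm x v w u]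
  ring

theorem fderiv_pair {X Y : E n → E n} {x : E n} (hX : DifferentiableAt ℝ X x)
    (hY : DifferentiableAt ℝ Y x) (w : E n) :
    fderiv ℝ (fun y => G y (X y) (Y y)) x w =
      G x (covd G X x w) (Y x) + G x (X x) (covd G Y x w) := by
  have h := ((hG.differentiableAt_coeff x).hasFDerivAt.clm_apply hX.hasFDerivAt).clm_apply
    hY.hasFDerivAt
  rw [h.fderiv]
  simp only [covd, add_apply, ContinuousLinearMap.comp_apply, ContinuousLinearMap.flip_apply,
    map_add]
  rw [hG.compat x w (X x) (Y x)]
  ring

end IsMetric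

theorem koszul_add_left (G : Coeff n) (x u u' v : E n) :
    koszul G x (u + u') v = koszul G x u v + koszul G x u' v := by
  ext w
  simp only [koszul, map_add, smul_apply, sub_apply, add_apply,
    ContinuousLinearMap.flip_apply, smul_eq_mul]
  ring

theorem koszul_smul_left (G : Coeff n) (x u v : E n) (c : ℝ) :
    koszul G x (c • u) v = c • koszul G x u v := by
  ext w
  simp only [koszul, map_smul, smul_apply, sub_apply, add_apply,
    ContinuousLinearMap.flip_apply, smul_eq_mul]
  ring

theorem koszul_add_right (G : Coeff n) (x u v v' : E n) :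
    koszul G x u (v + v') = koszul G x u v + koszul G x u v' := by
  ext w
  simp only [koszul, map_add, smul_apply, sub_apply, add_apply,
    ContinuousLinearMap.flip_apply, smul_eq_mul]
  ring

theorem koszul_smul_right (G : Coeff n) (x u v : E n) (c : ℝ) :
    koszul G x u (c • v) = c • koszul G x u v := by
  ext w
  simp only [koszul, map_smul, smul_apply, sub_apply, add_apply,
    ContinuousLinearMap.flip_apply, smul_eq_mul]
  ring

theorem chr_add_left (G : Coeff n) (x u u' v : E n) :
    chr G x (u + u') v = chr G x u v + chr G x u' v := by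
  simp only [chr, koszul_add_left, map_add]

theorem chr_smul_left (G : Coeff n) (x u v : E n) (c : ℝ) :
    chr G x (c • u) v = c • chr G x u v := by
  simp only [chr, koszul_smul_left, map_smul]

theorem chr_add_right (G : Coeff n) (x u v v' : E n) :
    chr G x u (v + v') = chr G x u v + chr G x u v' := by
  simp only [chr, koszul_add_right, map_add]

theorem chr_smul_right (G : Coeff n) (x u v : E n) (c : ℝ) :
    chr G x u (c • v) = c • chr G x u v := by
  simp only [chr, koszul_smul_right, map_smul]

/-- The Christoffel symbols as a bilinear map. -/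
def chrL (G : Coeff n) (x : E n) : E n →L[ℝ] E n →L[ℝ] E n :=
  LinearMap.toContinuousLinearMap
    { toFun := fun u => LinearMap.toContinuousLinearMap
        { toFun := chr G x u
          map_add' := chr_add_right G x u
          map_smul' := fun c v => chr_smul_right G x u v c }
      map_add' := fun u u' => by ext v : 1; exact chr_add_left G x u u' v
      map_smul' := fun c u => by ext v : 1; exact chr_smul_left G x u v c }

@[simp] theorem chrL_apply (G : Coeff n) (x u v : E n) : chrL G x u v = chr G x u v := rfl

theorem chr_zero_left (G : Coeff n) (x v : E n) : chr G x 0 v = 0 := by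
  simp [← chrL_apply]

theorem chr_zero_right (G : Coeff n) (x u : E n) : chr G x u 0 = 0 := by
  simp [← chrL_apply]

/-- The trace of `u ↦ Γ(w, u)` as a functional of `w`. -/
def chrTr (G : Coeff n) (x : E n) : E n →L[ℝ] ℝ :=
  ∑ i, (EuclideanSpace.proj i).comp ((chrL G x).flip (single₁ i))

theorem chrTr_apply (G : Coeff n) (x w : E n) :
    chrTr G x w = ∑ i, chr G x w (EuclideanSpace.single i 1) i := by
  simp [chrTr, ← chrL_apply]

/-- The matrix of the metric. -/
def gmat (G : Coeff n) (x : E n) : Matrix (Fin n) (Fin n) ℝ :=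
  Matrix.of fun i j => G x (single₁ i) (single₁ j)

theorem dens_eq (G : Coeff n) (x : E n) : dens G x = Real.sqrt (gmat G x).det := rfl

namespace IsMetric

variable (hG : IsMetric G)
include hG

theorem contDiff_chrL : ContDiff ℝ ∞ (chrL G) := by
  have hd : ContDiff ℝ ∞ (fderiv ℝ G) := hG.smooth.fderiv_right (by simp)
  refine contDiff_clm_apply_iff.2 fun u => contDiff_clm_apply_iff.2 fun v => ?_
  refine hG.contDiff_inverse_sharp.clm_apply
    ((toDual ℝ (E n)).symm.toContinuousLinearEquiv.contDiff.comp
      (contDiff_clm_apply_iff.2 fun w => ?_))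
  have key : ∀ a b c : E n, ContDiff ℝ ∞ fun x => fderiv ℝ G x a b c := fun a b c =>
    ((hd.clm_apply contDiff_const).clm_apply contDiff_const).clm_apply contDiff_const
  simpa [koszul] using (((key u v w).add (key v u w)).sub (key w u v)).const_smul (1 / 2 : ℝ)

theorem contDiff_chr :
    ContDiff ℝ ∞ fun q : E n × E n × E n => chr G q.1 q.2.1 q.2.2 :=
  ((hG.contDiff_chrL.comp contDiff_fst).clm_apply (contDiff_fst.comp contDiff_snd)).clm_apply
    (contDiff_snd.comp contDiff_snd)

theorem fderiv_chr (x h u v : E n) :
    fderiv ℝ (fun y => chr G y u v) x h = fderiv ℝ (chrL G) x h u v := by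
  have hd := ((((hG.contDiff_chrL.differentiable (by simp)).differentiableAt (x := x)).hasFDerivAt).clm_apply
    (hasFDerivAt_const u x)).clm_apply (hasFDerivAt_const v x)
  change fderiv ℝ (fun y => chrL G y u v) x h = _
  rw [hd.fderiv]
  simp

theorem posDef_gmat (x : E n) : (gmat G x).PosDef := by
  refine Matrix.PosDef.of_dotProduct_mulVec_pos (Matrix.ext fun i j => ?_) fun a ha => ?_
  · simp [gmat, Matrix.conjTranspose, hG.symm x (single₁ j)]
  · have hne : WithLp.toLp 2 a ≠ 0 := by simpa using ha
    have h := hG.pos x _ hne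
    rw [← sum_coord_smul (WithLp.toLp 2 a)] at h
    simp only [map_sum, map_smul, sum_apply, smul_apply, smul_eq_mul] at h
    simp only [Finset.mul_sum] at h
    rw [Finset.sum_comm] at h
    simpa [gmat, dotProduct, Matrix.mulVec, Finset.mul_sum, mul_comm, mul_left_comm] using h

theorem dens_pos (x : E n) : 0 < dens G x := Real.sqrt_pos.2 (hG.posDef_gmat x).det_pos

theorem contDiff_det : ContDiff ℝ ∞ fun x => (gmat G x).det := by
  simp only [Matrix.det_apply']
  refine ContDiff.sum fun σ _ => contDiff_const.mul (contDiff_prod fun i _ => ?_)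
  exact (hG.smooth.clm_apply contDiff_const).clm_apply contDiff_const

theorem contDiff_dens : ContDiff ℝ ∞ (dens G) :=
  hG.contDiff_det.sqrt fun x => (hG.posDef_gmat x).det_pos.ne'

end IsMetric

/-- The derivative of a determinant along a curve whose derivative factors as `A C + Cᵀ A`. -/
theorem deriv_det_factor {A : ℝ → Matrix (Fin n) (Fin n) ℝ} {A' C : Matrix (Fin n) (Fin n) ℝ}
    (hA : ∀ i j, HasDerivAt (fun t => A t i j) (A' i j) 0)
    (hfac : A' = A 0 * C + C.transpose * A 0) :
    HasDerivAt (fun t => (A t).det) (2 * (A 0).det * C.trace) 0 := by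
  have h : HasDerivAt (fun t => (A t).det)
      (∑ σ : Equiv.Perm (Fin n), (Equiv.Perm.sign σ : ℝ) *
        ∑ i, (∏ k ∈ Finset.univ.erase i, A 0 (σ k) k) * A' (σ i) i) 0 := by
    simp only [Matrix.det_apply']
    refine HasDerivAt.fun_sum fun σ _ => HasDerivAt.const_mul _ ?_
    simpa [smul_eq_mul] using HasDerivAt.fun_finsetProd (fun i _ => hA (σ i) i)
  refine h.congr_deriv ?_
  have hadj : ∀ B : Matrix (Fin n) (Fin n) ℝ, ((A 0).adjugate * B).trace =
      ∑ σ : Equiv.Perm (Fin n), (Equiv.Perm.sign σ : ℝ) *
        ∑ i, (∏ k ∈ Finset.univ.erase i, A 0 (σ k) k) * B (σ i) i := by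
    intro B
    have hcol : ∀ i, ((A 0).adjugate * B) i i = ((A 0).updateCol i fun j => B j i).det := by
      intro i
      rw [← Matrix.cramer_apply, Matrix.cramer_eq_adjugate_mulVec]
      rfl
    simp only [Matrix.trace, Matrix.diag, hcol, Matrix.det_apply', Finset.mul_sum]
    rw [Finset.sum_comm]
    refine Finset.sum_congr rfl fun σ _ => Finset.sum_congr rfl fun i _ => ?_
    congr 1
    rw [← Finset.mul_prod_erase _ _ (Finset.mem_univ i)]
    rw [Matrix.updateCol_self, mul_comm]
    congr 1
    refine Finset.prod_congr rfl fun k hk => ?_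
    rw [Matrix.updateCol_ne (Finset.ne_of_mem_erase hk)]
  rw [← hadj, hfac, mul_add, Matrix.trace_add, ← mul_assoc, Matrix.adjugate_mul, smul_mul_assoc,
    one_mul, Matrix.trace_smul, Matrix.trace_mul_comm, mul_assoc, Matrix.mul_adjugate,
    mul_smul_comm, mul_one, Matrix.trace_smul, Matrix.trace_transpose]
  simp only [smul_eq_mul]
  ring

namespace IsMetric

variable (hG : IsMetric G)
include hG

theorem hasFDerivAt_dens (x : E n) : HasFDerivAt (dens G) (dens G x • chrTr G x) x := by
  have hd : DifferentiableAt ℝ (dens G) x :=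
    (hG.contDiff_dens.differentiable (by simp)).differentiableAt
  refine hd.hasFDerivAt.congr_fderiv ?_
  ext w
  set C : Matrix (Fin n) (Fin n) ℝ := Matrix.of fun k i => chr G x w (single₁ i) k
  have hline : HasDerivAt (fun t : ℝ => x + t • w) w 0 := by
    simpa using ((hasDerivAt_id (0 : ℝ)).smul_const w).const_add x
  have hA : ∀ i j, HasDerivAt (fun t : ℝ => gmat G (x + t • w) i j)
      (fderiv ℝ G x w (single₁ i) (single₁ j)) 0 := by
    intro i j
    have h := (hG.hasFDerivAt_apply (x + (0 : ℝ) • w) (single₁ i) (single₁ j)).comp_hasDerivAt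
      (0 : ℝ) hline
    simpa [gmat, Function.comp_def] using h
  have hfac : (Matrix.of fun i j => fderiv ℝ G x w (single₁ i) (single₁ j)) =
      gmat G (x + (0 : ℝ) • w) * C + C.transpose * gmat G (x + (0 : ℝ) • w) := by
    ext i j
    simp only [zero_smul, add_zero, Matrix.of_apply, Matrix.add_apply, Matrix.mul_apply,
      Matrix.transpose_apply, gmat, C]
    rw [hG.compat, add_comm]
    congr 1
    · conv_lhs => rw [← sum_coord_smul (chr G x w (single₁ j))]
      simp [mul_comm]
    · conv_lhs => rw [← sum_coord_smul (chr G x w (single₁ i))]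
      simp
  have hdet := (deriv_det_factor hA hfac).sqrt
    (by simpa using (hG.posDef_gmat x).det_pos.ne')
  have hcomp := HasFDerivAt.comp_hasDerivAt_of_eq (0 : ℝ) hd.hasFDerivAt hline (by simp)
  have hu := hcomp.unique (hdet : HasDerivAt (dens G ∘ fun t : ℝ => x + t • w) _ 0)
  rw [hu, zero_smul, add_zero, smul_apply, chrTr_apply, smul_eq_mul]
  have hC : C.trace = ∑ i, chr G x w (single₁ i) i := rfl
  rw [hC, dens_eq]
  have hs := (Real.sqrt_pos.2 (hG.posDef_gmat x).det_pos)
  field_simp
  rw [Real.sq_sqrt (hG.posDef_gmat x).det_pos.le]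
  ring

theorem fderiv_dens (x w : E n) : fderiv ℝ (dens G) x w = dens G x * chrTr G x w := by
  rw [(hG.hasFDerivAt_dens x).fderiv]; rfl

end IsMetric

theorem curv_swap (G : Coeff n) (x u v w : E n) : curv G x v u w = -curv G x u v w := by
  simp only [curv]
  abel

namespace IsMetric

variable (hG : IsMetric G)
include hG

theorem differentiableAt_chr (x v w : E n) : DifferentiableAt ℝ (fun y => chr G y v w) x :=
  ((((hG.contDiff_chrL.differentiable (by simp)).differentiableAt (x := x)).hasFDerivAt.clm_apply
    (hasFDerivAt_const v x)).clm_apply (hasFDerivAt_const w x)).differentiableAt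

theorem curv_eq (x u v w : E n) :
    curv G x u v w = fderiv ℝ (chrL G) x u v w - fderiv ℝ (chrL G) x v u w +
      chr G x u (chr G x v w) - chr G x v (chr G x u w) := by
  rw [curv, hG.fderiv_chr, hG.fderiv_chr]

omit hG in
theorem curv_self (x u w : E n) : curv G x u u w = 0 := by simp [curv]

theorem curv_add_left (x u u' v w : E n) :
    curv G x (u + u') v w = curv G x u v w + curv G x u' v w := by
  simp only [hG.curv_eq, ← chrL_apply, map_add, add_apply]
  abel

theorem curv_smul_left (x u v w : E n) (c : ℝ) :
    curv G x (c • u) v w = c • curv G x u v w := by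
  simp only [hG.curv_eq, ← chrL_apply, map_smul, smul_apply, smul_sub, smul_add]

theorem curv_add_middle (x u v v' w : E n) :
    curv G x u (v + v') w = curv G x u v w + curv G x u v' w := by
  rw [curv_swap, hG.curv_add_left, neg_add, ← curv_swap, ← curv_swap]

theorem curv_smul_middle (x u v w : E n) (c : ℝ) :
    curv G x u (c • v) w = c • curv G x u v w := by
  rw [curv_swap, hG.curv_smul_left, ← smul_neg, ← curv_swap]

theorem curv_add_right (x u v w w' : E n) :
    curv G x u v (w + w') = curv G x u v w + curv G x u v w' := by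
  simp only [hG.curv_eq, ← chrL_apply, map_add]
  abel

theorem curv_smul_right (x u v w : E n) (c : ℝ) :
    curv G x u v (c • w) = c • curv G x u v w := by
  simp only [hG.curv_eq, ← chrL_apply, map_smul, smul_sub, smul_add]

theorem fderiv_fderiv_apply (x u v w z : E n) :
    fderiv ℝ (fderiv ℝ G) x u v w z =
      fderiv ℝ (fun y => G y (chr G y v w) z + G y w (chr G y v z)) x u := by
  have hd : DifferentiableAt ℝ (fderiv ℝ G) x :=
    ((hG.smooth.fderiv_right (m := ∞) (by simp)).differentiable (by simp)).differentiableAt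
  have h := ((hd.hasFDerivAt.clm_apply (hasFDerivAt_const v x)).clm_apply
    (hasFDerivAt_const w x)).clm_apply (hasFDerivAt_const z x)
  rw [← funext fun y => hG.compat y v w z, h.fderiv]
  simp

/-- The curvature is antisymmetric for the metric. -/
theorem G_curv_antisymm (x u v w z : E n) :
    G x (curv G x u v w) z = -G x (curv G x u v z) w := by
  have hs : IsSymmSndFDerivAt ℝ G x :=
    hG.smooth.contDiffAt.isSymmSndFDerivAt (by simp; exact WithTop.coe_le_coe.2 le_top)
  have key : fderiv ℝ (fderiv ℝ G) x u v w z = fderiv ℝ (fderiv ℝ G) x v u w z := by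
    rw [hs u v]
  rw [hG.fderiv_fderiv_apply, hG.fderiv_fderiv_apply] at key
  have hp : ∀ a b c : E n, DifferentiableAt ℝ (fun y => G y (chr G y a b) c) x := fun a b c =>
    (((hG.differentiableAt_coeff x).hasFDerivAt.clm_apply
      (hG.differentiableAt_chr x a b).hasFDerivAt).clm_apply
        (hasFDerivAt_const c x)).differentiableAt
  have hsym : ∀ a : E n, (fun y => G y w (chr G y a z)) = fun y => G y (chr G y a z) w :=
    fun a => funext fun y => hG.symm y _ _
  have hadd : ∀ a, fderiv ℝ (fun y => G y (chr G y a w) z + G y w (chr G y a z)) x =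
      fderiv ℝ (fun y => G y (chr G y a w) z) x + fderiv ℝ (fun y => G y (chr G y a z) w) x := by
    intro a
    rw [fderiv_fun_add (hp a w z) (hsym a ▸ hp a z w), hsym a]
  have hc : ∀ a b c d : E n, fderiv ℝ (fun y => G y (chr G y a b) c) x d =
      G x (fderiv ℝ (fun y => chr G y a b) x d) c + G x (chr G x d (chr G x a b)) c +
        G x (chr G x a b) (chr G x d c) := by
    intro a b c d
    rw [hG.fderiv_pair (hG.differentiableAt_chr x a b) (differentiableAt_const c) d]
    simp [covd]
  rw [hadd, hadd, add_apply, add_apply, hc, hc, hc, hc,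
    hG.symm x (chr G x v z) (chr G x u w), hG.symm x (chr G x u z) (chr G x v w)] at key
  simp only [curv, map_add, map_sub, add_apply, sub_apply]
  linarith

theorem G_curv_self (x u v w : E n) : G x (curv G x u v w) w = 0 := by
  linarith [hG.G_curv_antisymm x u v w w]

end IsMetric

end

end Vale.Agent.P219.CH
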