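import Vale.Agent.P219.CH.Geo.Flow.Field
import Vale.Agent.P219.CH.Geo.Jacobi.Scalar
import Vale.Agent.P219.CH.Geo.Hadamard.Exp

/-!
P219: Jacobi fields. The derivative of the geodesic flow solves the covariant Jacobi equation;
in nonpositive curvature this gives the expansion of the exponential map, the convexity estimate
behind the Hessian comparison, and the Gauss lemma (`JacobiFacts`).
-/

namespace Vale.Agent.P219.CH

open MeasureTheory Filter Set Topology
open scoped ContDiff

noncomputable section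

variable {n : ℕ} {G : Coeff n}

theorem fderiv_geoField (hG : IsMetric G) (q h : E n × E n) :
    fderiv ℝ (geoField G) q h = (h.2, -(fderiv ℝ (chrL G) q.1 h.1 q.2 q.2 +
      chr G q.1 h.2 q.2 + chr G q.1 q.2 h.2)) := by
  have h1 : HasFDerivAt (fun q : E n × E n => chrL G q.1)
      ((fderiv ℝ (chrL G) q.1).comp (ContinuousLinearMap.fst ℝ _ _)) q :=
    HasFDerivAt.comp q (hG.contDiff_chrL.differentiable (by norm_num) q.1).hasFDerivAt
      (ContinuousLinearMap.fst ℝ (E n) (E n)).hasFDerivAt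
  have h2 : HasFDerivAt (fun q : E n × E n => q.2) (ContinuousLinearMap.snd ℝ (E n) (E n)) q :=
    (ContinuousLinearMap.snd ℝ (E n) (E n)).hasFDerivAt
  have h3 : HasFDerivAt (geoField G) _ q := h2.prodMk ((h1.clm_apply h2).clm_apply h2).neg
  rw [h3.fderiv]
  refine Prod.ext (by simp) ?_
  simp [chrL_apply]
  abel

theorem hasDerivAt_fst {f : ℝ → E n × E n} {f' : E n × E n} {t : ℝ} (h : HasDerivAt f f' t) :
    HasDerivAt (fun s => (f s).1) f'.1 t :=
  (ContinuousLinearMap.fst ℝ (E n) (E n)).hasFDerivAt.comp_hasDerivAt t h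

theorem hasDerivAt_snd {f : ℝ → E n × E n} {f' : E n × E n} {t : ℝ} (h : HasDerivAt f f' t) :
    HasDerivAt (fun s => (f s).2) f'.2 t :=
  (ContinuousLinearMap.snd ℝ (E n) (E n)).hasFDerivAt.comp_hasDerivAt t h

variable {φ : ℝ → E n × E n → E n × E n}

theorem IsFlow.hasFDerivAt_time (h : IsFlow G φ) (t : ℝ) (p : E n × E n) :
    HasFDerivAt (φ t) ((fderiv ℝ (fun q : ℝ × (E n × E n) => φ q.1 q.2) (t, p)).comp
      (ContinuousLinearMap.inr ℝ ℝ (E n × E n))) p :=
  HasFDerivAt.comp (g := fun q : ℝ × (E n × E n) => φ q.1 q.2) p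
    (h.c1.differentiable one_ne_zero (t, p)).hasFDerivAt (hasFDerivAt_prodMk_right t p)

/-- The variational equation. -/
theorem IsFlow.hasDerivAt_fderiv (hG : IsMetric G) (h : IsFlow G φ) (p w : E n × E n)
    (t : ℝ) : HasDerivAt (fun s => fderiv ℝ (φ s) p w)
      (fderiv ℝ (geoField G) (φ t p) (fderiv ℝ (φ t) p w)) t := by
  set D : ℝ → ℝ → E n × E n := fun s r => fderiv ℝ (φ s) (p + r • w) w with hD
  have hDc : Continuous fun q : ℝ × ℝ => D q.1 q.2 := by
    have e : (fun q : ℝ × ℝ => D q.1 q.2) = fun q : ℝ × ℝ =>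
        fderiv ℝ (fun z : ℝ × (E n × E n) => φ z.1 z.2) (q.1, p + q.2 • w) (0, w) := by
      funext q
      simp only [D, (h.hasFDerivAt_time q.1 (p + q.2 • w)).fderiv]
      rfl
    rw [e]
    exact ((h.c1.continuous_fderiv one_ne_zero).comp (by fun_prop)).clm_apply continuous_const
  have hDd : ∀ s r, HasDerivAt (fun r => φ s (p + r • w)) (D s r) r := fun s r => by
    have h1 : HasDerivAt (fun r : ℝ => p + r • w) w r := by
      simpa using ((hasDerivAt_id r).smul_const w).const_add p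
    exact (h.hasFDerivAt_time s _).differentiableAt.hasFDerivAt.comp_hasDerivAt r h1
  have hF : ContDiff ℝ 1 (geoField G) :=
    (contDiff_geoField hG).of_le (WithTop.coe_le_coe.2 le_top)
  have hDF : Continuous fun q : ℝ × ℝ =>
      fderiv ℝ (geoField G) (φ q.1 (p + q.2 • w)) (D q.1 q.2) :=
    ((hF.continuous_fderiv one_ne_zero).comp (h.c1.continuous.comp
      (continuous_fst.prodMk (continuous_const.add (continuous_snd.smul continuous_const))))).clm_apply
      hDc
  set g : ℝ → E n × E n := fun s => fderiv ℝ (geoField G) (φ s p) (D s 0) with hg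
  have hgc : Continuous g := by
    have := hDF.comp (continuous_id.prodMk continuous_const : Continuous fun s : ℝ => (s, (0 : ℝ)))
    simpa [g, Function.comp_def] using this
  have hflow : ∀ r τ : ℝ, φ τ (p + r • w) =
      p + r • w + ∫ s in (0 : ℝ)..τ, geoField G (φ s (p + r • w)) := by
    intro r τ
    rw [intervalIntegral.integral_eq_sub_of_hasDerivAt (fun s _ => h.ode (p + r • w) s)
      ((hF.continuous.comp (h.c1.continuous.comp
        (continuous_id.prodMk continuous_const))).intervalIntegrable 0 τ), h.zero]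
    abel
  have key : ∀ τ, D τ 0 = w + ∫ s in (0 : ℝ)..τ, g s := by
    intro τ
    obtain ⟨C, hC⟩ := (isCompact_uIcc.prod (isCompact_Icc (a := (-1 : ℝ)) (b := 1))).exists_bound_of_continuousOn
      (f := fun q : ℝ × ℝ => fderiv ℝ (geoField G) (φ q.1 (p + q.2 • w)) (D q.1 q.2))
      (s := uIcc (0 : ℝ) τ ×ˢ Icc (-1 : ℝ) 1) hDF.continuousOn
    have hcont : ∀ r : ℝ, Continuous fun s => geoField G (φ s (p + r • w)) := fun r =>
      hF.continuous.comp (h.c1.continuous.comp (continuous_id.prodMk continuous_const))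
    have hint := (intervalIntegral.hasDerivAt_integral_of_dominated_loc_of_deriv_le
      (μ := volume) (a := (0 : ℝ)) (b := τ) (x₀ := (0 : ℝ)) (s := Icc (-1 : ℝ) 1)
      (F := fun r s => geoField G (φ s (p + r • w)))
      (F' := fun r s => fderiv ℝ (geoField G) (φ s (p + r • w)) (D s r)) (bound := fun _ => C)
      (Icc_mem_nhds (by norm_num) (by norm_num))
      (Eventually.of_forall fun r => (hcont r).aestronglyMeasurable)
      ((hcont 0).intervalIntegrable 0 τ)
      (hDF.comp (continuous_id.prodMk continuous_const) :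
        Continuous fun s : ℝ => fderiv ℝ (geoField G) (φ s (p + (0 : ℝ) • w)) (D s 0)).aestronglyMeasurable
      (Eventually.of_forall fun s hs r hr => hC (s, r) ⟨uIoc_subset_uIcc hs, hr⟩)
      intervalIntegrable_const
      (Eventually.of_forall fun s _ r _ =>
        (hF.differentiable one_ne_zero _).hasFDerivAt.comp_hasDerivAt r (hDd s r))).2
    have h2 : HasDerivAt (fun r : ℝ => p + r • w + ∫ s in (0 : ℝ)..τ, geoField G (φ s (p + r • w)))
        (w + ∫ s in (0 : ℝ)..τ, fderiv ℝ (geoField G) (φ s (p + (0 : ℝ) • w)) (D s 0)) 0 := by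
      have h1 : HasDerivAt (fun r : ℝ => p + r • w) w 0 := by
        simpa using ((hasDerivAt_id (0 : ℝ)).smul_const w).const_add p
      exact h1.add hint
    rw [← funext fun r => hflow r τ] at h2
    simpa [g] using (hDd τ 0).unique h2
  have e : (fun s => fderiv ℝ (φ s) p w) = fun s => w + ∫ u in (0 : ℝ)..s, g u :=
    funext fun s => by simpa [D] using key s
  rw [e]
  have e2 : fderiv ℝ (φ t) p w = D t 0 := by simp [D]
  rw [e2]
  exact (hgc.integral_hasStrictDerivAt 0 t).hasDerivAt.const_add w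

theorem IsFlow.fderiv_zero (h : IsFlow G φ) (p w : E n × E n) : fderiv ℝ (φ 0) p w = w := by
  rw [show φ 0 = id from funext h.zero]
  simp

/-- Derivative of a pairing along a curve. -/
theorem hasDerivAt_pair (hG : IsMetric G) {γ a b : ℝ → E n} {γ' a' b' : E n} {t : ℝ}
    (hγ : HasDerivAt γ γ' t) (ha : HasDerivAt a a' t) (hb : HasDerivAt b b' t) :
    HasDerivAt (fun s => G (γ s) (a s) (b s))
      (G (γ t) (a' + chr G (γ t) γ' (a t)) (b t) + G (γ t) (a t) (b' + chr G (γ t) γ' (b t))) t := by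
  have h1 := (hG.smooth.differentiable (by norm_num) (γ t)).hasFDerivAt.comp_hasDerivAt t hγ
  refine ((h1.clm_apply ha).clm_apply hb).congr_deriv ?_
  simp only [Function.comp_apply, add_apply, map_add, hG.compat]
  ring

theorem sq_le_of_isMetric (hG : IsMetric G) (x u v : E n) :
    G x u v ^ 2 ≤ G x v v * G x u u := by
  rcases eq_or_ne v 0 with rfl | hv
  · simp
  have hv' := hG.pos x v hv
  set c := G x u v / G x v v with hc
  have h : 0 ≤ G x (u - c • v) (u - c • v) := by
    rcases eq_or_ne (u - c • v) 0 with h | h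
    · simp [h]
    · exact (hG.pos x _ h).le
  simp only [map_sub, map_smul, sub_apply, smul_apply, smul_eq_mul, hG.symm x v u] at h
  have e : G x u u - c * G x u v - c * (G x u v - c * G x v v) =
      G x u u - G x u v ^ 2 / G x v v := by rw [hc]; field_simp; ring
  rw [e, sub_nonneg, div_le_iff₀ hv'] at h
  linarith

theorem tendsto_pair (hG : IsMetric G) {l : Filter ℝ} {γ a b : ℝ → E n} {y u v : E n}
    (hγ : Tendsto γ l (𝓝 y)) (ha : Tendsto a l (𝓝 u)) (hb : Tendsto b l (𝓝 v)) :
    Tendsto (fun s => G (γ s) (a s) (b s)) l (𝓝 (G y u v)) := by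
  have hc : Continuous fun q : E n × E n × E n => G q.1 q.2.1 q.2.2 :=
    ((hG.smooth.continuous.comp continuous_fst).clm_apply
      (continuous_fst.comp continuous_snd)).clm_apply (continuous_snd.comp continuous_snd)
  exact (hc.tendsto (y, u, v)).comp (hγ.prodMk_nhds (ha.prodMk_nhds hb))

/-- The three estimates along one geodesic, for the derivative of the flow in a vertical
direction. -/
theorem jacobi_main (hCH : IsCH G) (h : IsFlow G φ) (x v a : E n) :
    let y := fderiv ℝ (φ 1) (x, v) (0, a)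
    let q := φ 1 (x, v)
    G x a a ≤ G q.1 y.1 y.1 ∧ G q.1 y.1 y.1 ≤ G q.1 (y.2 + chr G q.1 y.1 q.2) y.1 ∧
      G q.1 q.2 y.1 = G x v a := by
  have hG := hCH.metric
  intro y q
  set γ : ℝ → E n := fun t => (φ t (x, v)).1 with hγd
  set V : ℝ → E n := fun t => (φ t (x, v)).2 with hVd
  set J : ℝ → E n := fun t => (fderiv ℝ (φ t) (x, v) (0, a)).1 with hJd
  set K : ℝ → E n := fun t => (fderiv ℝ (φ t) (x, v) (0, a)).2 with hKd
  have hγ : ∀ t, HasDerivAt γ (V t) t := fun t => hasDerivAt_fst (h.ode (x, v) t)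
  have hV : ∀ t, HasDerivAt V (-chr G (γ t) (V t) (V t)) t := fun t => by
    simpa [geoField, chrL_apply, γ, V] using hasDerivAt_snd (h.ode (x, v) t)
  have hy := fun t => h.hasDerivAt_fderiv hG (x, v) (0, a) t
  have hJ : ∀ t, HasDerivAt J (K t) t := fun t => by
    simpa [fderiv_geoField hG, J, K] using hasDerivAt_fst (hy t)
  have hK : ∀ t, HasDerivAt K (-(fderiv ℝ (chrL G) (γ t) (J t) (V t) (V t) +
      chr G (γ t) (K t) (V t) + chr G (γ t) (V t) (K t))) t := fun t => by
    simpa [fderiv_geoField hG, J, K, γ, V] using hasDerivAt_snd (hy t)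
  set W : ℝ → E n := fun t => K t + chrL G (γ t) (V t) (J t) with hWd
  have hW : ∀ t, ∃ W', HasDerivAt W W' t ∧
      W' + chr G (γ t) (V t) (W t) = -curv G (γ t) (J t) (V t) (V t) := by
    intro t
    have h1 := (hG.contDiff_chrL.differentiable (by norm_num) (γ t)).hasFDerivAt.comp_hasDerivAt t
      (hγ t)
    refine ⟨_, (hK t).add ((h1.clm_apply (hV t)).clm_apply (hJ t)), ?_⟩
    simp only [W, curv, hG.fderiv_chr]
    simp only [Function.comp_apply, add_apply, map_add, map_neg, neg_apply, ← chrL_apply]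
    have s1 : ∀ u w, chrL G (γ t) u w = chrL G (γ t) w u := fun u w => by
      rw [chrL_apply, chrL_apply, hG.chr_symm]
    have s2 : fderiv ℝ (chrL G) (γ t) (V t) (V t) (J t) =
        fderiv ℝ (chrL G) (γ t) (V t) (J t) (V t) := by
      rw [← hG.fderiv_chr, ← hG.fderiv_chr]
      simp only [hG.chr_symm _ (V t) (J t)]
    rw [s1 (K t) (V t), s1 (chrL G (γ t) (V t) (V t)) (J t), s1 (J t) (V t), s2]
    abel
  choose W' hW' hWeq using hW
  have e0 : J 0 = 0 ∧ K 0 = a ∧ γ 0 = x ∧ V 0 = v := by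
    simp [J, K, γ, V, h.fderiv_zero, h.zero]
  obtain ⟨hJ0, hK0, hγ0, hV0⟩ := e0
  have hW0 : W 0 = a := by simp [W, hJ0, hK0, chr_zero_right]
  have hW1 : W 1 = y.2 + chr G q.1 y.1 q.2 := by
    show K 1 + chrL G q.1 q.2 (J 1) = _
    rw [chrL_apply, hG.chr_symm]
  have hgauss : G (γ 1) (V 1) (J 1) = G x v a := by
    have h2 : ∀ t, HasDerivAt (fun s => G (γ s) (V s) (W s)) 0 t := fun t => by
      refine (hasDerivAt_pair hG (hγ t) (hV t) (hW' t)).congr_deriv ?_
      rw [hWeq]
      simp [hG.symm (γ t) (V t), hG.G_curv_self]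
    have h1 : ∀ t, HasDerivAt (fun s => G (γ s) (V s) (J s) - s * G x v a) 0 t := fun t => by
      have hc := is_const_of_deriv_eq_zero (fun t => (h2 t).differentiableAt)
        (fun t => (h2 t).deriv) t 0
      rw [hγ0, hV0, hW0] at hc
      refine ((hasDerivAt_pair hG (hγ t) (hV t) (hJ t)).sub
        ((hasDerivAt_id t).mul_const (G x v a))).congr_deriv ?_
      rw [← hc]
      simp [W, chrL_apply]
    have hc := is_const_of_deriv_eq_zero (fun t => (h1 t).differentiableAt)
      (fun t => (h1 t).deriv) 1 0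
    simp [hγ0, hJ0] at hc
    linarith
  rcases eq_or_ne a 0 with ha | ha
  · subst ha
    have hy0 : y = 0 := by simp [y, Prod.mk_zero_zero]
    refine ⟨by simp [hy0], by simp [hy0], hgauss⟩
  have hs := jacobi_scalar (f := fun t => G (γ t) (W t) (J t)) (g := fun t => G (γ t) (J t) (J t))
    (f' := fun t => -G (γ t) (curv G (γ t) (J t) (V t) (V t)) (J t) + G (γ t) (W t) (W t))
    (m := fun t => G (γ t) (W t) (W t)) (c := G x a a) (fun t => ?_) (fun t => ?_) (fun t => ?_)
    (fun t => ?_) (fun t => sq_le_of_isMetric hG _ _ _) (by simp [hJ0]) (hG.pos x a ha) ?_ ?_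
  · exact ⟨hs.1, by rw [← hW1]; exact hs.2, hgauss⟩
  · refine (hasDerivAt_pair hG (hγ t) (hJ t) (hJ t)).congr_deriv ?_
    rw [hG.symm (γ t) (J t)]
    simp [W, chrL_apply, two_mul]
  · refine (hasDerivAt_pair hG (hγ t) (hW' t) (hJ t)).congr_deriv ?_
    rw [hWeq]
    simp [W, chrL_apply]
  · rcases eq_or_ne (W t) 0 with hw | hw
    · simp [hw]
    · exact (hG.pos _ _ hw).le
  · linarith [hCH.sec (γ t) (J t) (V t)]
  all_goals
    have hγt : Tendsto γ (𝓝[>] 0) (𝓝 x) :=
      hγ0 ▸ ((hγ 0).continuousAt.tendsto.mono_left nhdsWithin_le_nhds)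
    have hWt : Tendsto W (𝓝[>] 0) (𝓝 a) :=
      hW0 ▸ ((hW' 0).continuousAt.tendsto.mono_left nhdsWithin_le_nhds)
    have hJt : Tendsto (fun t => t⁻¹ • J t) (𝓝[>] 0) (𝓝 a) := by
      have h1 := ((hJ 0).tendsto_slope_zero).mono_left
        (nhdsWithin_mono (0 : ℝ) (s := Ioi (0 : ℝ)) fun t ht => (mem_Ioi.1 ht).ne')
      simpa [hJ0, hK0] using h1
  · refine (tendsto_pair hG hγt hJt hJt).congr' (Eventually.of_forall fun t => ?_)
    simp [div_eq_inv_mul, pow_two, mul_assoc]
  · refine (tendsto_pair hG hγt hWt hJt).congr' (Eventually.of_forall fun t => ?_)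
    simp [div_eq_inv_mul]

theorem fderiv_flow_vertical (h : IsFlow G φ) (x v a : E n) :
    fderiv ℝ (fun u => φ 1 (x, u)) v a = fderiv ℝ (φ 1) (x, v) (0, a) := by
  have h1 : HasFDerivAt (fun u => φ 1 (x, u))
      ((fderiv ℝ (φ 1) (x, v)).comp (ContinuousLinearMap.inr ℝ (E n) (E n))) v :=
    HasFDerivAt.comp (g := φ 1) v (h.hasFDerivAt_time 1 (x, v)).differentiableAt.hasFDerivAt
      (hasFDerivAt_prodMk_right x v)
  rw [h1.fderiv]
  rfl

/-- The Jacobi field facts of a geodesic flow of a Cartan-Hadamard metric. -/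
theorem IsFlow.jacobiFacts (hCH : IsCH G) (h : IsFlow G φ) : JacobiFacts G φ := by
  have key : ∀ x v a, fderiv ℝ (expAt φ x) v a = (fderiv ℝ (φ 1) (x, v) (0, a)).1 ∧
      fderiv ℝ (velAt φ x) v a = (fderiv ℝ (φ 1) (x, v) (0, a)).2 := by
    intro x v a
    have hd : HasFDerivAt (fun u => φ 1 (x, u)) (fderiv ℝ (fun u => φ 1 (x, u)) v) v :=
      (HasFDerivAt.comp (g := φ 1) v (h.hasFDerivAt_time 1 (x, v))
        (hasFDerivAt_prodMk_right x v)).differentiableAt.hasFDerivAt
    rw [← fderiv_flow_vertical h x v a]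
    exact ⟨by rw [show expAt φ x = fun u => (φ 1 (x, u)).1 from rfl, hd.fst.fderiv]; rfl,
      by rw [show velAt φ x = fun u => (φ 1 (x, u)).2 from rfl, hd.snd.fderiv]; rfl⟩
  refine ⟨fun x v w => ?_, fun x v w => ?_, fun x v w => ?_⟩
  · rw [(key x v w).1]; exact (jacobi_main hCH h x v w).1
  · rw [(key x v w).1, (key x v w).2]; exact (jacobi_main hCH h x v w).2.1
  · rw [(key x v w).1]; exact (jacobi_main hCH h x v w).2.2

end

end Vale.Agent.P219.CH
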