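import Vale.Agent.P219.CH.Geo.Flow
import Vale.Agent.P219.CH.Geo.Jacobi

/-!
P219: the geometry of Cartan-Hadamard metrics on `ℝⁿ`, assembled.
-/

namespace Vale.Agent.P219.CH

noncomputable section

/-- Every Cartan-Hadamard metric has the geometry used by the core. -/
theorem geoStmt (n : ℕ) : GeoStmt n := fun _G hCH =>
  geo_of_flow hCH.metric (contDiff_gflow hCH.metric hCH.complete)
    ((isFlow_gflow hCH.metric hCH.complete).jacobiFacts hCH) (gflow_zero hCH.complete)
    (gflow_add hCH.metric hCH.complete) (gflow_geodesic hCH.complete)
    (gflow_scale hCH.metric hCH.complete) (gflow_speed hCH.metric hCH.complete)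
    (measurePreserving_gflow hCH.metric hCH.complete)

end

end Vale.Agent.P219.CH
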