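import Vale.Agent.P219.CH.Geo.Flow.Field
import Vale.Agent.P219.CH.Geo.Flow.Ode

/-!
P219: the geodesic flow of a complete metric: existence, regularity, homogeneity, constant speed
and Liouville's theorem.
-/

namespace Vale.Agent.P219.CH

open MeasureTheory
open scoped ContDiff ENNReal

noncomputable section

set_option maxSynthPendingDepth 3

variable {n : ℕ} {G : Coeff n}

/-- The geodesic flow. -/
def gflow (hC : GeodComplete G) (t : ℝ) (p : E n × E n) : E n × E n :=
  ((hC p.1 p.2).choose t, deriv (hC p.1 p.2).choose t)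

theorem gflow_zero (hC : GeodComplete G) (p : E n × E n) : gflow hC 0 p = p := by
  obtain ⟨-, h1, h2⟩ := (hC p.1 p.2).choose_spec
  exact Prod.ext h1 h2

theorem hasDerivAt_gflow (hC : GeodComplete G) (p : E n × E n) (t : ℝ) :
    HasDerivAt (fun s => gflow hC s p) (geoField G (gflow hC t p)) t :=
  ((hC p.1 p.2).choose_spec.1 t).1.prodMk ((hC p.1 p.2).choose_spec.1 t).2

theorem gflow_geodesic (hC : GeodComplete G) (p : E n × E n) :
    IsGeodesic G (fun t => (gflow hC t p).1) ∧
      ∀ t, deriv (fun s => (gflow hC s p).1) t = (gflow hC t p).2 :=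
  ⟨(hC p.1 p.2).choose_spec.1, fun _ => rfl⟩

theorem hasDerivAt_gflow_fst (hC : GeodComplete G) (p : E n × E n) (t : ℝ) :
    HasDerivAt (fun s => (gflow hC s p).1) (gflow hC t p).2 t :=
  (ContinuousLinearMap.fst ℝ (E n) (E n)).hasFDerivAt.comp_hasDerivAt t (hasDerivAt_gflow hC p t)

theorem hasDerivAt_gflow_snd (hC : GeodComplete G) (p : E n × E n) (t : ℝ) :
    HasDerivAt (fun s => (gflow hC s p).2)
      (-chr G (gflow hC t p).1 (gflow hC t p).2 (gflow hC t p).2) t :=
  (ContinuousLinearMap.snd ℝ (E n) (E n)).hasFDerivAt.comp_hasDerivAt t (hasDerivAt_gflow hC p t)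

variable (hG : IsMetric G) (hC : GeodComplete G)

include hG

theorem isFlowOf_gflow : IsFlowOf (geoField G) (gflow hC) :=
  ⟨contDiff_geoField hG, gflow_zero hC, hasDerivAt_gflow hC⟩

theorem contDiff_gflow : ContDiff ℝ 1 fun q : ℝ × (E n × E n) => gflow hC q.1 q.2 :=
  (isFlowOf_gflow hG hC).contDiff

theorem isFlow_gflow : IsFlow G (gflow hC) :=
  ⟨contDiff_gflow hG hC, gflow_zero hC, hasDerivAt_gflow hC⟩

theorem gflow_add (s t : ℝ) (p : E n × E n) :
    gflow hC (s + t) p = gflow hC s (gflow hC t p) :=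
  (isFlowOf_gflow hG hC).add s t p

theorem gflow_scale (c t : ℝ) (x v : E n) :
    gflow hC t (x, c • v) =
      ((gflow hC (c * t) (x, v)).1, c • (gflow hC (c * t) (x, v)).2) := by
  have hd : ∀ s, HasDerivAt
      (fun u => ((gflow hC (c * u) (x, v)).1, c • (gflow hC (c * u) (x, v)).2))
      (geoField G ((gflow hC (c * s) (x, v)).1, c • (gflow hC (c * s) (x, v)).2)) s := by
    intro s
    have h := hasDerivAt_gflow hC (x, v) (c * s)
    have hm : HasDerivAt (fun u : ℝ => c * u) c s := by
      simpa using (hasDerivAt_id s).const_mul c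
    have h1 := h.scomp s hm
    have h2 : HasDerivAt (fun u => (gflow hC (c * u) (x, v)).1)
        (c • geoField G (gflow hC (c * s) (x, v))).1 s :=
      (ContinuousLinearMap.fst ℝ (E n) (E n)).hasFDerivAt.comp_hasDerivAt s h1
    have h3 : HasDerivAt (fun u => (gflow hC (c * u) (x, v)).2)
        (c • geoField G (gflow hC (c * s) (x, v))).2 s :=
      (ContinuousLinearMap.snd ℝ (E n) (E n)).hasFDerivAt.comp_hasDerivAt s h1
    exact (h2.prodMk (h3.fun_const_smul c)).congr_deriv (by
      simp [geoField, chr_smul_left, chr_smul_right])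
  have he := (isFlowOf_gflow hG hC).unique hd (x := (x, c • v)) (s := 0)
    (by simp [gflow_zero])
  exact (congrFun he t).symm

/-- The energy of a geodesic is constant. -/
theorem hasDerivAt_energy {a b : ℝ → E n} {s : ℝ} (ha : HasDerivAt a (b s) s)
    (hb : HasDerivAt b (-chr G (a s) (b s) (b s)) s) :
    HasDerivAt (fun u => G (a u) (b u) (b u)) 0 s := by
  have h0 : HasDerivAt (fun u => G (a u)) (fderiv ℝ G (a s) (b s)) s :=
    (hG.differentiableAt_coeff (a s)).hasFDerivAt.comp_hasDerivAt s ha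
  have h1 : HasDerivAt (fun u => G (a u) (b u))
      (fderiv ℝ G (a s) (b s) (b s) + G (a s) (-chr G (a s) (b s) (b s))) s :=
    h0.clm_apply hb
  refine (h1.clm_apply hb).congr_deriv ?_
  rw [add_apply, hG.compat, map_neg, map_neg, neg_apply]
  ring

theorem gflow_speed (t : ℝ) (p : E n × E n) :
    gnorm G (gflow hC t p).1 (gflow hC t p).2 = gnorm G p.1 p.2 := by
  have hd : ∀ s, HasDerivAt
      (fun u => G (gflow hC u p).1 (gflow hC u p).2 (gflow hC u p).2) 0 s := fun s =>
    hasDerivAt_energy hG (hasDerivAt_gflow_fst hC p s) (hasDerivAt_gflow_snd hC p s)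
  have he := is_const_of_deriv_eq_zero (fun s => (hd s).differentiableAt)
    (fun s => (hd s).deriv) t 0
  rw [gnorm, gnorm, he, gflow_zero]

/-- The geodesic field preserves the squared density. -/
theorem geoField_div (q : E n × E n) :
    fderiv ℝ (fun p : E n × E n => dens G p.1 ^ 2) q (geoField G q) +
      dens G q.1 ^ 2 * LinearMap.trace ℝ (E n × E n) (fderiv ℝ (geoField G) q).toLinearMap = 0 := by
  have hp : fderiv ℝ (fun p : E n × E n => dens G p.1 ^ 2) q (geoField G q) =
      2 * dens G q.1 * (dens G q.1 * chrTr G q.1 q.2) := by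
    have h := HasFDerivAt.pow ((hG.hasFDerivAt_dens q.1).comp q hasFDerivAt_fst) 2
    rw [show (fun p : E n × E n => dens G p.1 ^ 2) =
      fun p => (dens G ∘ Prod.fst) p ^ 2 from rfl, h.fderiv]
    simp [geoField]
  have hcb : HasFDerivAt (fun p : E n × E n => chrL G p.1)
      ((fderiv ℝ (chrL G) q.1).comp (ContinuousLinearMap.fst ℝ (E n) (E n))) q :=
    ((hG.contDiff_chrL.differentiable (by simp)).differentiableAt.hasFDerivAt).comp q hasFDerivAt_fst
  have hW : HasFDerivAt (geoField G) ((ContinuousLinearMap.snd ℝ (E n) (E n)).prod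
      (-((chrL G q.1 q.2).comp (ContinuousLinearMap.snd ℝ (E n) (E n)) +
        (((chrL G q.1).comp (ContinuousLinearMap.snd ℝ (E n) (E n))) +
          ((fderiv ℝ (chrL G) q.1).comp (ContinuousLinearMap.fst ℝ (E n) (E n))).flip q.2).flip q.2))) q :=
    hasFDerivAt_snd.prodMk ((hcb.clm_apply hasFDerivAt_snd).clm_apply hasFDerivAt_snd).neg
  rw [hp, hW.fderiv, LinearMap.trace_eq_matrix_trace ℝ
    ((EuclideanSpace.basisFun (Fin n) ℝ).toBasis.prod (EuclideanSpace.basisFun (Fin n) ℝ).toBasis),
    Matrix.trace, Fintype.sum_sum_type]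
  simp only [Matrix.diag, LinearMap.toMatrix_apply, Module.Basis.prod_apply,
    Module.Basis.prod_repr_inl, Module.Basis.prod_repr_inr]
  simp [chrTr_apply, hG.chr_symm q.1 _ q.2, Finset.sum_add_distrib]
  ring

theorem measurePreserving_gflow (t : ℝ) :
    MeasurePreserving (gflow hC t) (liouville G) (liouville G) :=
  (isFlowOf_gflow hG hC).measurePreserving ((volume : Measure (E n)).prod volume)
    (p := fun q => dens G q.1 ^ 2)
    (((hG.contDiff_dens.comp contDiff_fst).pow 2).differentiable (by simp))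
    (fun q => pow_pos (hG.dens_pos q.1) 2) (geoField_div hG) t

end

end Vale.Agent.P219.CH
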